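import Vale.Agent.P225.Group.Targets
import Vale.Agent.P225.Stage.Block

/-!
P225, module D: at a product point the weights `(2 α + 5)⁻¹`, `α (α + 5) = k (cas a + cas c)`,
separate the blocks.
-/

noncomputable section

namespace Vale.Agent.P225

open SU2

/-- The exponent of a block at the product point with scale `k`. -/
def prodExp (k : ℝ) (p : ℕ × ℕ) : ℝ :=
  (-5 + Real.sqrt (25 + 4 * (k * (cas p.1 + cas p.2)))) / 2

theorem cas_nonneg (a : ℕ) : 0 ≤ cas a := by unfold cas; positivity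

theorem cas_injective : Function.Injective cas := by
  intro a b h
  unfold cas at h
  have h1 : ((a : ℝ) - b) * ((a : ℝ) + b + 2) = 0 := by nlinarith
  rcases mul_eq_zero.1 h1 with h2 | h2
  · exact_mod_cast (sub_eq_zero.1 h2)
  · have ha : (0 : ℝ) ≤ a := Nat.cast_nonneg a
    have hb : (0 : ℝ) ≤ b := Nat.cast_nonneg b
    linarith

theorem stageWeight_prodExp {k : ℝ} (hk : 0 ≤ k) (p : ℕ × ℕ) :
    stageWeight (prodExp k) 5 p = (Real.sqrt (25 + 4 * (k * (cas p.1 + cas p.2))))⁻¹ := by
  unfold stageWeight prodExp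
  congr 1
  ring

theorem prodExp_nonneg {k : ℝ} (hk : 0 ≤ k) (p : ℕ × ℕ) : 0 ≤ prodExp k p := by
  have hm : 0 ≤ k * (cas p.1 + cas p.2) :=
    mul_nonneg hk (add_nonneg (cas_nonneg _) (cas_nonneg _))
  have : (5 : ℝ) ≤ Real.sqrt (25 + 4 * (k * (cas p.1 + cas p.2))) :=
    Real.le_sqrt_of_sq_le (by norm_num; linarith)
  unfold prodExp
  linarith

theorem separates_prodExp (β : Finset (ℕ × ℕ)) {k : ℝ} (hk : 0 < k) :
    Separates β (stageWeight (prodExp k) 5) := by
  have hpos : ∀ p : ℕ × ℕ, 0 < 25 + 4 * (k * (cas p.1 + cas p.2)) := fun p => by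
    have := mul_nonneg hk.le (add_nonneg (cas_nonneg p.1) (cas_nonneg p.2))
    linarith
  have hsq : ∀ p, stageWeight (prodExp k) 5 p ^ 2 =
      (25 + 4 * (k * (cas p.1 + cas p.2)))⁻¹ := fun p => by
    rw [stageWeight_prodExp hk.le, inv_pow, Real.sq_sqrt (hpos p).le]
  refine ⟨fun p _ => ?_, fun p _ q _ h => ?_⟩
  · rw [stageWeight_prodExp hk.le]
    exact inv_ne_zero (Real.sqrt_ne_zero'.2 (hpos p))
  · simp only [hsq, Prod.mk.injEq] at h
    obtain ⟨h1, h2⟩ := h
    have hp := hpos p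
    have hq := hpos q
    set u := cas p.1 + cas p.2 with hu
    set v := cas q.1 + cas q.2 with hv
    have hs : u / (25 + 4 * (k * u)) = v / (25 + 4 * (k * v)) := by
      have := congrArg₂ (· + ·) h1 h2
      simp only [← mul_add] at this
      rw [inv_mul_eq_div, inv_mul_eq_div] at this
      exact this
    have huv : u = v := by
      rw [div_eq_div_iff hp.ne' hq.ne'] at hs
      linarith
    rw [huv] at h1 h2
    have hne : (25 + 4 * (k * v))⁻¹ ≠ 0 := inv_ne_zero hq.ne'
    exact Prod.ext (cas_injective (mul_left_cancel₀ hne h1))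
      (cas_injective (mul_left_cancel₀ hne h2))

end Vale.Agent.P225
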