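import Vale.Agent.P225.Group.Elementary.Tools

/-!
P225, module D: the basis of a gauge block in which the real structure is monomial (tesseral for
even labels, weight pairs for odd labels) and the elementary targets written in it.
-/

noncomputable section

namespace Vale.Agent.P225

open NormedSpace Matrix SU2
open scoped ComplexOrder Matrix.Norms.L2Operator

/-- Change to the tesseral basis for even labels; the weight basis for odd ones. -/
def tess (a : ℕ) : Matrix (Fin (a + 1)) (Fin (a + 1)) ℂ := fun k i =>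
  if a % 2 = 1 then (if k = i then 1 else 0)
  else if 2 * (i : ℕ) = a then
    (if k = i then (if (a / 2) % 2 = 0 then 1 else Complex.I) else 0)
  else if 2 * (i : ℕ) < a then
    ((if k = i then 1 else 0) + (-1) ^ (i : ℕ) * (if (k : ℕ) = a - i then 1 else 0)) /
      (Real.sqrt 2 : ℂ)
  else
    Complex.I *
      ((if (k : ℕ) = a - i then 1 else 0) - (-1) ^ (a - (i : ℕ)) * (if k = i then 1 else 0)) /
      (Real.sqrt 2 : ℂ)

/-- The image of an index under the real structure. -/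
def flipIdx (a : ℕ) (i : Fin (a + 1)) : Fin (a + 1) := if a % 2 = 1 then i.rev else i

/-- The weight of the diagonal entry of `tess`. -/
def tessA (a : ℕ) (i : Fin (a + 1)) : ℂ :=
  if a % 2 = 1 then 1
  else if 2 * (i : ℕ) = a then (if (a / 2) % 2 = 0 then 1 else Complex.I)
  else if 2 * (i : ℕ) < a then 1 / (Real.sqrt 2 : ℂ)
  else -((-1) ^ (a - (i : ℕ)) * Complex.I) / (Real.sqrt 2 : ℂ)

/-- The weight of the antidiagonal entry of `tess`. -/
def tessB (a : ℕ) (i : Fin (a + 1)) : ℂ :=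
  if a % 2 = 1 then 0
  else if 2 * (i : ℕ) = a then 0
  else if 2 * (i : ℕ) < a then (-1) ^ (i : ℕ) / (Real.sqrt 2 : ℂ)
  else Complex.I / (Real.sqrt 2 : ℂ)

theorem val_rev (a : ℕ) (i : Fin (a + 1)) : (i.rev : ℕ) = a - i := by
  rw [Fin.val_rev]; omega

theorem tess_eq (a : ℕ) (k i : Fin (a + 1)) :
    tess a k i = tessA a i * (if k = i then 1 else 0) + tessB a i * (if k = i.rev then 1 else 0) := by
  have e : (k = i.rev) ↔ (k : ℕ) = a - i := by rw [← val_rev, Fin.ext_iff]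
  simp only [tess, tessA, tessB, e]
  split_ifs <;> ring

theorem star_ite_one {c : Prop} [Decidable c] :
    star (if c then (1 : ℂ) else 0) = if c then 1 else 0 := by
  split_ifs <;> simp

theorem sqrt_two_facts : (Real.sqrt 2 : ℂ) * (Real.sqrt 2 : ℂ) = 2 ∧ (Real.sqrt 2 : ℂ) ≠ 0 ∧
    star (Real.sqrt 2 : ℂ) = (Real.sqrt 2 : ℂ) := by
  refine ⟨?_, by simp, Complex.conj_ofReal _⟩
  rw [← Complex.ofReal_mul, Real.mul_self_sqrt (by norm_num)]
  norm_num

theorem neg_one_pow_sub {a i : ℕ} (ha : a % 2 = 0) (hi : i ≤ a) :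
    ((-1 : ℂ)) ^ (a - i) = (-1) ^ i := by
  have e : a - i + i = a := Nat.sub_add_cancel hi
  have h : ((-1 : ℂ)) ^ (a - i) * (-1) ^ i = 1 := by
    rw [← pow_add, e]; exact (Nat.even_iff.2 ha).neg_one_pow
  have h' : ((-1 : ℂ)) ^ i * (-1) ^ i = 1 := by rw [← mul_pow]; norm_num
  linear_combination ((-1 : ℂ) ^ i) * h - ((-1 : ℂ) ^ (a - i)) * h'

theorem rev_eq_iff {a : ℕ} {i : Fin (a + 1)} : i = i.rev ↔ 2 * (i : ℕ) = a := by
  rw [Fin.ext_iff, val_rev]; omega

theorem tessB_mid {a : ℕ} {i : Fin (a + 1)} (h : i = i.rev) : tessB a i = 0 := by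
  rw [rev_eq_iff] at h
  simp [tessB, h]

theorem tessA_norm_mid {a : ℕ} {i : Fin (a + 1)} (h : i = i.rev) :
    star (tessA a i) * tessA a i = 1 := by
  rw [rev_eq_iff] at h
  simp only [tessA, h]
  split_ifs <;> simp

theorem tess_norm {a : ℕ} {i : Fin (a + 1)} (h : i ≠ i.rev) :
    star (tessA a i) * tessA a i + star (tessB a i) * tessB a i = 1 := by
  have hm : ¬ 2 * (i : ℕ) = a := fun e => h (rev_eq_iff.2 e)
  obtain ⟨h1, h2, h3⟩ := sqrt_two_facts
  simp only [tessA, tessB, hm, if_false]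
  split_ifs
  · simp
  · simp only [star_div₀, star_one, h3, star_pow, star_neg]
    field_simp
    rw [sq (Real.sqrt 2 : ℂ), h1, ← pow_mul, mul_comm, pow_mul]
    norm_num
  · simp only [star_div₀, star_mul', h3, star_pow, star_neg, star_one, Complex.star_def,
      Complex.conj_I]
    field_simp
    rw [sq (Real.sqrt 2 : ℂ), h1, ← pow_mul, mul_comm (a - (i : ℕ)), pow_mul, Complex.I_sq]
    norm_num

theorem tess_cross {a : ℕ} {j : Fin (a + 1)} (h : j ≠ j.rev) :
    star (tessA a j.rev) * tessB a j + star (tessB a j.rev) * tessA a j = 0 := by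
  have hm : ¬ 2 * (j : ℕ) = a := fun e => h (rev_eq_iff.2 e)
  obtain ⟨h1, h2, h3⟩ := sqrt_two_facts
  have hj : (j : ℕ) ≤ a := Nat.lt_succ_iff.1 j.2
  simp only [tessA, tessB, hm, if_false, val_rev]
  rw [show a - (a - (j : ℕ)) = (j : ℕ) by omega]
  have hm' : ¬ 2 * (a - (j : ℕ)) = a := by omega
  simp only [hm', if_false]
  by_cases hodd : a % 2 = 1
  · simp [hodd]
  simp only [hodd, if_false]
  have hp := neg_one_pow_sub (show a % 2 = 0 by omega) hj
  have hsq : ((-1 : ℂ)) ^ (j : ℕ) * (-1) ^ (j : ℕ) = 1 := by rw [← mul_pow]; norm_num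
  by_cases hlt : 2 * (j : ℕ) < a
  · rw [if_pos hlt, if_pos hlt, if_neg (by omega), if_neg (by omega)]
    simp only [star_div₀, star_neg, star_mul', star_pow, star_one, h3, Complex.star_def,
      Complex.conj_I]
    field_simp
    linear_combination Complex.I * hsq
  · rw [if_neg hlt, if_neg hlt, if_pos (by omega), if_pos (by omega), hp]
    simp only [star_div₀, star_pow, star_neg, star_one, h3]
    field_simp
    linear_combination -Complex.I * hsq

/-- The sign of the real structure on a basis vector. -/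
def flipSgn (a : ℕ) (i : Fin (a + 1)) : ℂ := if a % 2 = 1 then (-1) ^ (i : ℕ) else 1

theorem tess_unitary (a : ℕ) : (tess a)ᴴ * tess a = 1 ∧ tess a * (tess a)ᴴ = 1 := by
  have h : (tess a)ᴴ * tess a = 1 := by
    ext i j
    rw [Matrix.mul_apply, Matrix.one_apply]
    simp only [conjTranspose_apply, tess_eq, star_add, star_mul', star_ite_one]
    simp only [add_mul, mul_add, Finset.sum_add_distrib, mul_ite, ite_mul, mul_one, mul_zero,
      zero_mul, Finset.sum_ite_eq', Finset.mem_univ, if_true]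
    by_cases hij : i = j
    · subst hij
      rw [if_pos rfl]
      by_cases hm : i = i.rev
      · have hB := tessB_mid hm
        simp [← hm, hB]
        exact tessA_norm_mid hm
      · simp [hm, Ne.symm hm]
        exact tess_norm hm
    · by_cases hij' : i = j.rev
      · subst hij'
        have hne : j ≠ j.rev := fun h => hij h.symm
        simp [Fin.rev_rev, hne, Ne.symm hne]
        exact (add_comm _ _).trans (tess_cross hne)
      · have h2 : ¬ i.rev = j := fun h => hij' (by rw [← h, Fin.rev_rev])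
        simp [hij, Ne.symm h2, Ne.symm hij, Ne.symm hij']
  exact ⟨h, mul_eq_one_comm.1 h⟩

theorem tess_conj {a : ℕ} {i : Fin (a + 1)} (ha : a % 2 = 0) (h : i ≠ i.rev) :
    (-1 : ℂ) ^ (i : ℕ) * star (tessB a i) = tessA a i ∧
      (-1 : ℂ) ^ (i : ℕ) * star (tessA a i) = tessB a i := by
  have hm : ¬ 2 * (i : ℕ) = a := fun e => h (rev_eq_iff.2 e)
  have ha' : ¬ a % 2 = 1 := by omega
  obtain ⟨h1, h2, h3⟩ := sqrt_two_facts
  have hi : (i : ℕ) ≤ a := Nat.lt_succ_iff.1 i.2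
  have hp := neg_one_pow_sub ha hi
  have hsq : ((-1 : ℂ)) ^ (i : ℕ) * (-1) ^ (i : ℕ) = 1 := by rw [← mul_pow]; norm_num
  simp only [tessA, tessB, hm, ha', if_false, hp]
  split_ifs <;>
    simp only [star_div₀, star_neg, star_mul', star_pow, star_one, h3, Complex.star_def,
      Complex.conj_I] <;>
    constructor <;> field_simp <;>
    linear_combination hsq

theorem conjJ_tess (a : ℕ) (k i : Fin (a + 1)) :
    (conjJ a * (tess a).map star) k i = flipSgn a i * tess a k (flipIdx a i) := by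
  have hL : (conjJ a * (tess a).map star) k i = (-1 : ℂ) ^ (k.rev : ℕ) * star (tess a k.rev i) := by
    rw [Matrix.mul_apply, Finset.sum_eq_single k.rev]
    · rw [conjJ_apply, if_pos, Matrix.map_apply]
      rw [val_rev]; omega
    · intro l _ hl
      rw [conjJ_apply, if_neg, zero_mul]
      intro h
      apply hl
      rw [Fin.ext_iff, val_rev]
      omega
    · simp
  have hk : ∀ x : Fin (a + 1), (k.rev = x ↔ k = x.rev) := fun x => Fin.rev_eq_iff
  rw [hL, tess_eq, tess_eq, star_add, star_mul', star_mul', star_ite_one, star_ite_one]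
  simp only [hk, Fin.rev_rev]
  simp only [flipSgn, flipIdx]
  by_cases hodd : a % 2 = 1
  · simp only [hodd, if_true, tessA, tessB, Fin.rev_rev]
    by_cases h : k = i.rev
    · subst h; simp [Fin.rev_rev]
    · simp [h]
  simp only [hodd, if_false, one_mul]
  have hi : (i : ℕ) ≤ a := Nat.lt_succ_iff.1 i.2
  have heven : a % 2 = 0 := by omega
  by_cases h1 : k = i.rev
  · subst h1
    rw [Fin.rev_rev, if_pos rfl]
    by_cases hm : i = i.rev
    · rw [← hm, if_pos rfl, tessB_mid hm]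
      rw [rev_eq_iff] at hm
      simp only [tessA, hodd, if_false, hm, if_true, star_zero, zero_mul, add_zero]
      rw [show (i : ℕ) = a / 2 by omega]
      split_ifs with hp
      · rw [(Nat.even_iff.2 hp).neg_one_pow]; simp
      · rw [(Nat.odd_iff.2 (by omega)).neg_one_pow]; simp
    · simp only [if_neg (Ne.symm hm), mul_one, mul_zero, add_zero, zero_add]
      exact (tess_conj heven hm).2
  · rw [if_neg h1]
    by_cases h2 : k = i
    · subst h2
      simp only [if_true, mul_one, mul_zero, zero_add, add_zero, val_rev]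
      rw [neg_one_pow_sub heven hi]
      exact (tess_conj heven h1).1
    · simp [h2]

theorem conjJ_unitary (a : ℕ) : (conjJ a)ᴴ * conjJ a = 1 := by
  ext i j
  rw [Matrix.mul_apply, Matrix.one_apply, Finset.sum_eq_single j.rev]
  · rw [conjTranspose_apply, conjJ_apply, conjJ_apply]
    by_cases h : i = j
    · subst h
      rw [if_pos (val_rev a i), if_pos rfl, star_pow, star_neg, star_one, ← mul_pow]
      norm_num
    · rw [if_neg (fun e => h ?_), star_zero, zero_mul, if_neg h]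
      rw [Fin.ext_iff]
      rw [val_rev] at e
      omega
  · intro k _ hk
    rw [conjJ_apply a k j, if_neg, mul_zero]
    intro e
    exact hk (Fin.ext (by rw [val_rev]; exact e))
  · simp

/-- A basis label of the block `p`: a third label and an index. -/
abbrev BlkIdx (p : ℕ × ℕ) :=
  (v : {v : Fin (p.1 + p.2 + 1) //
    p.1 ≤ (v : ℕ) + p.2 ∧ p.2 ≤ (v : ℕ) + p.1 ∧ Even ((v : ℕ) + p.1 + p.2)}) × Fin ((v.1 : ℕ) + 1)

/-- The triple of a basis label with moving slot `0`. -/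
abbrev blkTriple (p : ℕ × ℕ) (v : ℕ) : Lbl := ![v, p.1, p.2]

/-- Basis vector of the block. -/
def blkVec (p : ℕ × ℕ) (x : BlkIdx p) : Fin (p.1 + 1) × Fin (p.2 + 1) → ℂ :=
  fun u => ∑ l : Fin ((x.1.1 : ℕ) + 1), coupN (blkTriple p (x.1.1 : ℕ)) 0 u.1 u.2 l * tess (x.1.1 : ℕ) l x.2

/-- The vectors do not depend on the gauge. -/
theorem blkVec_gauge {t : Lbl} (ht : LblOK t) (G : Fin 3) (p q l : ℕ) :
    coupN t G p q l = coupN (blkTriple (t (G + 1), t (G + 2)) (t G)) 0 p q l := by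
  have e1 : ∀ (u : Lbl) (H : Fin 3), coupN u (H + 1) p q l = coupN (fun k => u (k + 1)) H p q l :=
    fun u H => (coupN_shift u H p q l).symm
  fin_cases G
  · exact congrArg (fun u => coupN u 0 p q l) (by funext k; fin_cases k <;> rfl)
  · exact (e1 t 0).trans (congrArg (fun u => coupN u 0 p q l) (by funext k; fin_cases k <;> rfl))
  · exact ((e1 t 1).trans (e1 _ 0)).trans
      (congrArg (fun u => coupN u 0 p q l) (by funext k; fin_cases k <;> rfl))

/-- The coupling of the block onto a third label, as a matrix. -/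
def blkMatC (p : ℕ × ℕ) (v : ℕ) : Matrix (Fin (p.1 + 1) × Fin (p.2 + 1)) (Fin (v + 1)) ℂ :=
  fun u l => coupN (blkTriple p v) 0 u.1 u.2 l

theorem lblOK_blkTriple {p : ℕ × ℕ} {v : Fin (p.1 + p.2 + 1)}
    (h : p.1 ≤ (v : ℕ) + p.2 ∧ p.2 ≤ (v : ℕ) + p.1 ∧ Even ((v : ℕ) + p.1 + p.2)) :
    LblOK (blkTriple p v) := by
  refine ⟨by simpa [blkTriple] using h.2.2, ?_, ?_, ?_⟩ <;> simp [blkTriple] <;> omega

theorem blkMatC_eq (p : ℕ × ℕ) (v : ℕ) : blkMatC p v = coup (blkTriple p v) 0 := by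
  ext u l
  exact coupN_apply (t := blkTriple p v) u l

theorem blkMatC_isometry (p : ℕ × ℕ) (v : Fin (p.1 + p.2 + 1))
    (h : p.1 ≤ (v : ℕ) + p.2 ∧ p.2 ≤ (v : ℕ) + p.1 ∧ Even ((v : ℕ) + p.1 + p.2)) :
    (blkMatC p v)ᴴ * blkMatC p v = 1 := by
  rw [blkMatC_eq]
  exact coup_isometry (lblOK_blkTriple h) 0

theorem blkMatC_orthogonal (p : ℕ × ℕ) (v w : Fin (p.1 + p.2 + 1))
    (h : p.1 ≤ (v : ℕ) + p.2 ∧ p.2 ≤ (v : ℕ) + p.1 ∧ Even ((v : ℕ) + p.1 + p.2))
    (h' : p.1 ≤ (w : ℕ) + p.2 ∧ p.2 ≤ (w : ℕ) + p.1 ∧ Even ((w : ℕ) + p.1 + p.2)) (hne : v ≠ w) :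
    (blkMatC p v)ᴴ * blkMatC p w = 0 := by
  rw [blkMatC_eq, blkMatC_eq]
  ext l l'
  exact coup_orthogonal (lblOK_blkTriple h) (lblOK_blkTriple h') 0 rfl rfl
    (fun e => hne (Fin.ext e)) l l'

theorem blkVec_orthonormal (p : ℕ × ℕ) (x y : BlkIdx p) :
    star (blkVec p x) ⬝ᵥ blkVec p y = if x = y then 1 else 0 := by
  obtain ⟨⟨v, hv⟩, i⟩ := x
  obtain ⟨⟨w, hw⟩, j⟩ := y
  have e : star (blkVec p ⟨⟨v, hv⟩, i⟩) ⬝ᵥ blkVec p ⟨⟨w, hw⟩, j⟩ =
      ((blkMatC p v * tess v)ᴴ * (blkMatC p w * tess w)) i j := by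
    simp [dotProduct, Matrix.mul_apply, blkVec, blkMatC, conjTranspose_apply, mul_comm]
  refine e.trans ?_
  have assoc : ((blkMatC p v * tess v)ᴴ * (blkMatC p w * tess w)) =
      (tess v)ᴴ * ((blkMatC p v)ᴴ * blkMatC p w * tess w) := by
    rw [conjTranspose_mul, Matrix.mul_assoc, Matrix.mul_assoc]
  by_cases hvw : v = w
  · subst hvw
    rw [blkMatC_isometry p v hv, Matrix.one_mul, (tess_unitary v).1] at assoc
    refine (congrFun (congrFun assoc i) j).trans ?_
    refine Matrix.one_apply.trans ?_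
    by_cases hij : i = j
    · subst hij; simp
    · rw [if_neg, if_neg]
      · intro h
        exact hij (eq_of_heq (Sigma.mk.inj_iff.1 h).2)
      · exact hij
  · rw [blkMatC_orthogonal p v w hv hw hvw, Matrix.zero_mul, Matrix.mul_zero] at assoc
    refine (congrFun (congrFun assoc i) j).trans ?_
    rw [if_neg]
    · rfl
    · intro h
      exact hvw (congrArg Subtype.val (Sigma.mk.inj_iff.1 h).1)

theorem card_blkIdx (p : ℕ × ℕ) :
    Fintype.card (BlkIdx p) = Fintype.card (Fin (p.1 + 1) × Fin (p.2 + 1)) := by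
  rw [Fintype.card_sigma, Fintype.card_prod, Fintype.card_fin, Fintype.card_fin,
    ← sum_third_label p.1 p.2]
  simp only [Fintype.card_fin]
  refine Finset.sum_bij (fun v _ => (v.1 : ℕ)) (fun v _ => ?_) (fun v _ w _ h => ?_) (fun m hm => ?_)
    (fun v _ => rfl)
  · exact Finset.mem_filter.2 ⟨Finset.mem_range.2 v.1.2, v.2⟩
  · exact Subtype.ext (Fin.ext h)
  · obtain ⟨hm1, hm2⟩ := Finset.mem_filter.1 hm
    exact ⟨⟨⟨m, Finset.mem_range.1 hm1⟩, hm2⟩, Finset.mem_univ _, rfl⟩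

theorem blkVec_complete (p : ℕ × ℕ) :
    ∑ x, vecMulVec (blkVec p x) (star (blkVec p x)) = (1 : BlkMat p) := by
  let V : Matrix (Fin (p.1 + 1) × Fin (p.2 + 1)) (BlkIdx p) ℂ := fun u x => blkVec p x u
  have h1 : Vᴴ * V = 1 := by
    ext x y
    rw [Matrix.one_apply, ← blkVec_orthonormal p x y, Matrix.mul_apply]
    rfl
  have h2 : V * Vᴴ = 1 := (Matrix.mul_eq_one_comm_of_card_eq _ _ ℂ (card_blkIdx p)).1 h1
  rw [← h2]
  ext u v
  rw [Matrix.sum_apply, Matrix.mul_apply]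
  rfl

/-- The partner under the real structure. -/
def blkFlip (p : ℕ × ℕ) (x : BlkIdx p) : BlkIdx p := ⟨x.1, flipIdx (x.1.1 : ℕ) x.2⟩

theorem blkVec_real (p : ℕ × ℕ) (x : BlkIdx p) :
    (Matrix.kroneckerMap (· * ·) (conjJ p.1) (conjJ p.2)) *ᵥ star (blkVec p x) =
      flipSgn (x.1.1 : ℕ) x.2 • blkVec p (blkFlip p x) := by
  obtain ⟨⟨v, hv⟩, i⟩ := x
  have hC : Matrix.kroneckerMap (· * ·) (conjJ p.1) (conjJ p.2) * (blkMatC p v).map star =
      blkMatC p v * conjJ v := by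
    rw [blkMatC_eq]
    exact coup_conjJ (lblOK_blkTriple hv) 0
  funext u
  have e : (Matrix.kroneckerMap (· * ·) (conjJ p.1) (conjJ p.2) *ᵥ star (blkVec p ⟨⟨v, hv⟩, i⟩)) u =
      (Matrix.kroneckerMap (· * ·) (conjJ p.1) (conjJ p.2) * (blkMatC p v).map star *
        (tess v).map star) u i := by
    rw [Matrix.mul_assoc]
    simp [mulVec, dotProduct, Matrix.mul_apply, blkVec, blkMatC]
  rw [e, hC, Matrix.mul_assoc, Matrix.mul_apply]
  simp only [conjJ_tess, Pi.smul_apply, smul_eq_mul, blkVec, blkFlip, blkMatC, Finset.mul_sum]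
  exact Finset.sum_congr rfl fun l _ => by ring

/-- Matrix unit. -/
def unitMat (p : ℕ × ℕ) (x y : BlkIdx p) : BlkMat p :=
  vecMulVec (blkVec p x) (star (blkVec p y))

/-- Put a matrix in one block. -/
def inBlk {β : Finset (ℕ × ℕ)} (p : β) (M : BlkMat p.1) : BlkAlg β := Pi.single p M

theorem flipSgn_star (a : ℕ) (i : Fin (a + 1)) : star (flipSgn a i) = flipSgn a i := by
  unfold flipSgn
  split_ifs <;> simp

theorem flipSgn_sq (a : ℕ) (i : Fin (a + 1)) : flipSgn a i * flipSgn a i = 1 := by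
  unfold flipSgn
  split_ifs
  · rw [← mul_pow]; norm_num
  · norm_num

theorem blkFlip_flip (p : ℕ × ℕ) (x : BlkIdx p) : blkFlip p (blkFlip p x) = x := by
  obtain ⟨v, i⟩ := x
  simp only [blkFlip, flipIdx]
  split_ifs <;> simp

theorem blkFlip_parity {p : ℕ × ℕ} {x : BlkIdx p} :
    blkFlip p x = x ↔ ((x.1.1 : ℕ) % 2 = 0) := by
  obtain ⟨v, i⟩ := x
  simp only [blkFlip, flipIdx, Sigma.mk.injEq, heq_eq_eq, true_and]
  split_ifs with h
  · simp only [Fin.ext_iff, val_rev]; omega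
  · simp; omega

theorem parity_eq {p : ℕ × ℕ} (x y : BlkIdx p) :
    (x.1.1 : ℕ) % 2 = (y.1.1 : ℕ) % 2 := by
  have h1 := Nat.even_iff.1 x.1.2.2.2
  have h2 := Nat.even_iff.1 y.1.2.2.2
  omega

theorem flipSgn_fixed {p : ℕ × ℕ} {x : BlkIdx p} (h : blkFlip p x = x) :
    flipSgn (x.1.1 : ℕ) x.2 = 1 := by
  rw [blkFlip_parity] at h
  simp [flipSgn, h]

theorem flipSgn_flip (p : ℕ × ℕ) (x : BlkIdx p) :
    flipSgn (x.1.1 : ℕ) x.2 * flipSgn (x.1.1 : ℕ) (blkFlip p x).2 = (-1) ^ (x.1.1 : ℕ) := by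
  obtain ⟨v, i⟩ := x
  simp only [blkFlip, flipSgn, flipIdx]
  split_ifs with h
  · rw [← pow_add, val_rev]
    congr 1
    omega
  · rw [(Nat.even_iff.2 (by omega)).neg_one_pow, mul_one]

theorem flipSgn_pair (p : ℕ × ℕ) (x y : BlkIdx p) :
    flipSgn (x.1.1 : ℕ) x.2 * flipSgn (x.1.1 : ℕ) (blkFlip p x).2 *
      (flipSgn (y.1.1 : ℕ) y.2 * flipSgn (y.1.1 : ℕ) (blkFlip p y).2) = 1 := by
  rw [flipSgn_flip, flipSgn_flip, neg_one_pow_eq_pow_mod_two,
    neg_one_pow_eq_pow_mod_two (n := (y.1.1 : ℕ)), parity_eq x y, ← mul_pow]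
  norm_num

theorem map_star_smul {p : ℕ × ℕ} (c : ℂ) (A : BlkMat p) :
    (c • A).map star = star c • A.map star := by
  ext; simp

theorem conj_unitMat (p : ℕ × ℕ) (x y : BlkIdx p) :
    Matrix.kroneckerMap (· * ·) (conjJ p.1) (conjJ p.2) * (unitMat p x y).map star =
      (flipSgn (x.1.1 : ℕ) x.2 * flipSgn (y.1.1 : ℕ) y.2) •
        (unitMat p (blkFlip p x) (blkFlip p y) *
          Matrix.kroneckerMap (· * ·) (conjJ p.1) (conjJ p.2)) := by
  set J := Matrix.kroneckerMap (· * ·) (conjJ p.1) (conjJ p.2)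
  have hJ : Jᴴ * J = 1 := by
    rw [conjTranspose_kronecker, ← mul_kronecker_mul, conjJ_unitary, conjJ_unitary,
      Matrix.one_kronecker_one]
  have hrow : star (blkVec p (blkFlip p y)) ᵥ* J = flipSgn (y.1.1 : ℕ) y.2 • blkVec p y := by
    have h := congrArg (fun v => star v ᵥ* J) (blkVec_real p y)
    simp only [star_mulVec, star_star, vecMul_vecMul, star_smul, flipSgn_star] at h
    change blkVec p y ᵥ* (Jᴴ * J) = _ at h
    rw [hJ, Matrix.vecMul_one, smul_vecMul] at h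
    conv_rhs => rw [h, smul_smul, flipSgn_sq, one_smul]
  have hmap : (unitMat p x y).map star = vecMulVec (star (blkVec p x)) (blkVec p y) := by
    ext u v; simp [unitMat, vecMulVec_apply]
  rw [hmap, mul_vecMulVec, blkVec_real, unitMat, vecMulVec_mul, hrow, vecMulVec_smul,
    smul_vecMulVec, smul_smul, mul_assoc, flipSgn_sq, mul_one]

/-- Real form of `z |x⟩⟨y|`. -/
def realUnit (p : ℕ × ℕ) (x y : BlkIdx p) (z : ℂ) : BlkMat p :=
  if blkFlip p x = x ∧ blkFlip p y = y then (z.re : ℂ) • unitMat p x y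
  else z • unitMat p x y + (star z * flipSgn (x.1.1 : ℕ) x.2 * star (flipSgn (y.1.1 : ℕ) y.2)) •
    unitMat p (blkFlip p x) (blkFlip p y)

theorem realUnit_isReal (p : ℕ × ℕ) (x y : BlkIdx p) (z : ℂ) :
    IsRealBlk p (realUnit p x y z) := by
  unfold IsRealBlk realUnit
  split_ifs with h
  · have hs := flipSgn_fixed h.1
    have ht := flipSgn_fixed h.2
    rw [map_star_smul, Matrix.mul_smul, Matrix.smul_mul, conj_unitMat p x y, h.1, h.2, hs, ht]
    simp
  · have h2 : flipSgn (x.1.1 : ℕ) x.2 * flipSgn (x.1.1 : ℕ) (blkFlip p x).2 *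
        (flipSgn (y.1.1 : ℕ) y.2 * flipSgn (y.1.1 : ℕ) (blkFlip p y).2) = 1 := flipSgn_pair p x y
    rw [Matrix.map_add _ star_add, map_star_smul, map_star_smul, Matrix.mul_add, Matrix.mul_smul,
      Matrix.mul_smul, conj_unitMat, conj_unitMat, blkFlip_flip, blkFlip_flip, Matrix.add_mul,
      Matrix.smul_mul, Matrix.smul_mul]
    simp only [smul_smul, star_mul', star_star, flipSgn_star]
    refine (add_comm _ _).trans (congrArg₂ (· + ·) (congrArg (· • _) ?_) (congrArg (· • _) ?_))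
    · simp only [blkFlip] at h2 ⊢
      linear_combination z * h2
    · ring

theorem trace_unitMat (p : ℕ × ℕ) (x y : BlkIdx p) :
    (unitMat p x y).trace = if x = y then 1 else 0 := by
  rw [unitMat, trace_vecMulVec, dotProduct_comm, blkVec_orthonormal]
  exact if_congr eq_comm rfl rfl

theorem unitMat_mulVec (p : ℕ × ℕ) (x y w : BlkIdx p) :
    unitMat p x y *ᵥ blkVec p w = if y = w then blkVec p x else 0 := by
  rw [unitMat, vecMulVec_mulVec, blkVec_orthonormal]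
  split_ifs <;> simp

theorem unitMat_mul (p : ℕ × ℕ) (x y u w : BlkIdx p) :
    unitMat p x y * unitMat p u w = if y = u then unitMat p x w else 0 := by
  rw [unitMat, unitMat, mul_vecMulVec, vecMulVec_mulVec, blkVec_orthonormal]
  split_ifs
  · simp [unitMat]
  · ext i j; simp [vecMulVec_apply]

theorem exp_inBlk {β : Finset (ℕ × ℕ)} (X : BlkAlg β) (q : β) : exp X q = exp (X q) :=
  map_exp_of_mem_ball (𝕂 := ℂ) (Pi.evalRingHom (fun q : β => BlkMat q.1) q) (continuous_apply q) X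
    ((expSeries_radius_eq_top ℂ (BlkAlg β)).symm ▸ edist_lt_top _ _)

theorem isTangent_inBlk {β : Finset (ℕ × ℕ)} (p : β) (h1 : p.1.1 ≠ 0) (h2 : p.1.2 ≠ 0)
    {M : BlkMat p.1} (hM : IsRealBlk p.1 M) (htr : M.trace = 0) : IsTangent (inBlk p M) := by
  intro q
  by_cases hq : q = p
  · subst hq
    simp only [inBlk, Pi.single_eq_same]
    exact ⟨hM, htr, fun h => absurd h (by tauto)⟩
  · simp [inBlk, Pi.single_eq_of_ne hq, IsRealBlk]

theorem exists_target {β : Finset (ℕ × ℕ)} (p : β) (h1 : p.1.1 ≠ 0) (h2 : p.1.2 ≠ 0)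
    {M : BlkMat p.1} (hM : IsRealBlk p.1 M) (htr : M.trace = 0) {Q : BlkMat p.1 → Prop}
    (hQ : Q (exp M)) :
    ∃ X : BlkAlg β, IsTangent X ∧ (∀ q, q ≠ p → exp X q = 1) ∧ Q (exp X p) := by
  refine ⟨inBlk p M, isTangent_inBlk p h1 h2 hM htr, fun q hq => ?_, ?_⟩
  · rw [exp_inBlk, inBlk, Pi.single_eq_of_ne hq, exp_zero]
  · rwa [exp_inBlk, inBlk, Pi.single_eq_same]

/-- A transvection between different third labels is an exponential of a tangent element. -/
theorem transvection_target {β : Finset (ℕ × ℕ)} (p : β) (h1 : p.1.1 ≠ 0) (h2 : p.1.2 ≠ 0)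
    (x y : BlkIdx p.1) (hxy : x.1 ≠ y.1) (z : ℂ) :
    IsTangent (inBlk p (realUnit p.1 x y z)) ∧
      exp (inBlk p (realUnit p.1 x y z)) = 1 + inBlk p (realUnit p.1 x y z) := by
  have hxy' : ∀ u w : BlkIdx p.1, u.1 = x.1 → w.1 = y.1 → w ≠ u := fun u w hu hw e =>
    hxy (by rw [← hu, ← e, hw])
  have htr : (realUnit p.1 x y z).trace = 0 := by
    unfold realUnit
    split_ifs <;>
      simp [trace_unitMat, (hxy' x y rfl rfl).symm,
        (hxy' (blkFlip p.1 x) (blkFlip p.1 y) rfl rfl).symm]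
  refine ⟨isTangent_inBlk p h1 h2 (realUnit_isReal _ _ _ _) htr, ?_⟩
  have hsq : realUnit p.1 x y z * realUnit p.1 x y z = 0 := by
    unfold realUnit
    split_ifs <;>
      simp [Matrix.add_mul, Matrix.mul_add, unitMat_mul, hxy' x y rfl rfl,
        hxy' (blkFlip p.1 x) y rfl rfl, hxy' x (blkFlip p.1 y) rfl rfl,
        hxy' (blkFlip p.1 x) (blkFlip p.1 y) rfl rfl]
  funext q
  rw [exp_inBlk]
  by_cases hq : q = p
  · subst hq
    simp [inBlk, exp_sq_zero _ hsq]
  · simp [inBlk, Pi.single_eq_of_ne hq, exp_zero]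

/-- A phase on a pair. -/
theorem phase_target {β : Finset (ℕ × ℕ)} (p : β) (h1 : p.1.1 ≠ 0) (h2 : p.1.2 ≠ 0)
    (x : BlkIdx p.1) (hx : blkFlip p.1 x ≠ x) (φ : ℝ) :
    ∃ X : BlkAlg β, IsTangent X ∧ (∀ q, q ≠ p → exp X q = 1) ∧
      exp X p *ᵥ blkVec p.1 x = Complex.exp (Complex.I * φ) • blkVec p.1 x ∧
      exp X p *ᵥ blkVec p.1 (blkFlip p.1 x) =
        Complex.exp (-(Complex.I * φ)) • blkVec p.1 (blkFlip p.1 x) ∧
      ∀ w, w ≠ x → w ≠ blkFlip p.1 x → exp X p *ᵥ blkVec p.1 w = blkVec p.1 w := by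
  refine exists_target p h1 h2 (realUnit_isReal p.1 x x (φ * Complex.I)) ?_ (Q := fun E =>
    E *ᵥ blkVec p.1 x = Complex.exp (Complex.I * φ) • blkVec p.1 x ∧
      E *ᵥ blkVec p.1 (blkFlip p.1 x) =
        Complex.exp (-(Complex.I * φ)) • blkVec p.1 (blkFlip p.1 x) ∧
      ∀ w, w ≠ x → w ≠ blkFlip p.1 x → E *ᵥ blkVec p.1 w = blkVec p.1 w) ?_
  · simp [realUnit, hx, trace_unitMat, flipSgn_star, flipSgn_sq, mul_assoc]
  · have hM : ∀ w, realUnit p.1 x x (φ * Complex.I) *ᵥ blkVec p.1 w =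
        (if x = w then (Complex.I * φ) else if blkFlip p.1 x = w then -(Complex.I * φ) else 0) •
          blkVec p.1 w := by
      intro w
      simp only [realUnit, hx, false_and, if_false, add_mulVec, smul_mulVec, unitMat_mulVec,
        flipSgn_star, mul_assoc, flipSgn_sq, mul_one]
      split_ifs with ha hb hb
      · exact absurd (hb.trans ha.symm) hx
      · subst ha; simp [mul_comm]
      · subst hb; simp [mul_comm]
      · simp
    refine ⟨exp_mulVec_eigen _ (by rw [hM, if_pos rfl]), exp_mulVec_eigen _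
      (by rw [hM, if_neg (Ne.symm hx), if_pos rfl]), fun w hw1 hw2 => exp_mulVec_of_eq_zero _ ?_⟩
    rw [hM, if_neg (Ne.symm hw1), if_neg (Ne.symm hw2), zero_smul]

/-- The flip inside a pair. -/
theorem flip_target {β : Finset (ℕ × ℕ)} (p : β) (h1 : p.1.1 ≠ 0) (h2 : p.1.2 ≠ 0)
    (x : BlkIdx p.1) (hx : blkFlip p.1 x ≠ x) :
    ∃ X : BlkAlg β, IsTangent X ∧ (∀ q, q ≠ p → exp X q = 1) ∧
      exp X p *ᵥ blkVec p.1 x = blkVec p.1 (blkFlip p.1 x) ∧
      exp X p *ᵥ blkVec p.1 (blkFlip p.1 x) = -blkVec p.1 x ∧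
      ∀ w, w ≠ x → w ≠ blkFlip p.1 x → exp X p *ᵥ blkVec p.1 w = blkVec p.1 w := by
  have hsgn : flipSgn (x.1.1 : ℕ) (blkFlip p.1 x).2 * flipSgn (x.1.1 : ℕ) x.2 = -1 := by
    rw [mul_comm, flipSgn_flip]
    exact (Nat.odd_iff.2 (by
      have := mt blkFlip_parity.2 hx
      omega)).neg_one_pow
  set θ : ℝ := Real.pi / 2
  refine exists_target p h1 h2 (realUnit_isReal p.1 (blkFlip p.1 x) x θ) ?_ (Q := fun E =>
    E *ᵥ blkVec p.1 x = blkVec p.1 (blkFlip p.1 x) ∧
      E *ᵥ blkVec p.1 (blkFlip p.1 x) = -blkVec p.1 x ∧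
      ∀ w, w ≠ x → w ≠ blkFlip p.1 x → E *ᵥ blkVec p.1 w = blkVec p.1 w) ?_
  · simp [realUnit, hx, trace_unitMat, blkFlip_flip, Ne.symm hx]
  · have hM : ∀ w, realUnit p.1 (blkFlip p.1 x) x θ *ᵥ blkVec p.1 w =
        (θ : ℂ) • ((if x = w then blkVec p.1 (blkFlip p.1 x) else 0) -
          (if blkFlip p.1 x = w then blkVec p.1 x else 0)) := by
      intro w
      simp only [realUnit, hx, and_false, if_false, add_mulVec, smul_mulVec, unitMat_mulVec,
        flipSgn_star, blkFlip_flip, Complex.star_def, Complex.conj_ofReal, mul_assoc]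
      rw [show (θ : ℂ) * (flipSgn ((blkFlip p.1 x).1.1 : ℕ) (blkFlip p.1 x).2 *
        flipSgn (x.1.1 : ℕ) x.2) = -(θ : ℂ) by
          rw [show flipSgn ((blkFlip p.1 x).1.1 : ℕ) (blkFlip p.1 x).2 *
            flipSgn (x.1.1 : ℕ) x.2 = -1 from hsgn]
          ring]
      rw [smul_sub, neg_smul, ← sub_eq_add_neg]
    obtain ⟨r1, r2⟩ := exp_mulVec_rot _ θ (v := blkVec p.1 x) (w := blkVec p.1 (blkFlip p.1 x))
      (by rw [hM, if_pos rfl, if_neg hx, sub_zero])
      (by rw [hM, if_pos rfl, if_neg (Ne.symm hx), zero_sub, smul_neg])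
    refine ⟨?_, ?_, fun w hw1 hw2 => exp_mulVec_of_eq_zero _ ?_⟩
    · simpa [θ] using r1
    · simpa [θ] using r2
    · simp [hM, Ne.symm hw1, Ne.symm hw2]

theorem plane_rot (p : ℕ × ℕ) (x y : BlkIdx p) (hxy : y ≠ x) (hxy' : y ≠ blkFlip p x) (θ : ℝ) :
    IsRealBlk p (realUnit p y x θ + realUnit p x y (-θ : ℝ)) ∧
      (realUnit p y x θ + realUnit p x y (-θ : ℝ)).trace = 0 ∧
      exp (realUnit p y x θ + realUnit p x y (-θ : ℝ)) *ᵥ blkVec p x =
        (Real.cos θ : ℂ) • blkVec p x + (Real.sin θ : ℂ) • blkVec p y ∧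
      exp (realUnit p y x θ + realUnit p x y (-θ : ℝ)) *ᵥ blkVec p y =
        (Real.cos θ : ℂ) • blkVec p y - (Real.sin θ : ℂ) • blkVec p x ∧
      ∀ w, w ≠ x → w ≠ blkFlip p x → w ≠ y → w ≠ blkFlip p y →
        exp (realUnit p y x θ + realUnit p x y (-θ : ℝ)) *ᵥ blkVec p w = blkVec p w := by
  have hfy : blkFlip p y ≠ x := fun e => hxy' (by rw [← e, blkFlip_flip])
  have hff : blkFlip p y ≠ blkFlip p x := fun e => hxy (by
    rw [← blkFlip_flip p y, e, blkFlip_flip])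
  have hpar : blkFlip p x = x ↔ blkFlip p y = y := by
    simp only [blkFlip_parity, parity_eq x y]
  set N := realUnit p y x θ + realUnit p x y (-θ : ℝ) with hN
  have hx0 : N *ᵥ blkVec p x = (θ : ℂ) • blkVec p y := by
    by_cases h : blkFlip p x = x <;>
      simp [hN, realUnit, h, ← hpar, add_mulVec, neg_mulVec, smul_mulVec, unitMat_mulVec, hxy, hfy]
  have hy0 : N *ᵥ blkVec p y = -((θ : ℂ) • blkVec p x) := by
    by_cases h : blkFlip p x = x
    · have h' := hpar.1 h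
      simp [hN, realUnit, h, h', add_mulVec, neg_mulVec, smul_mulVec, unitMat_mulVec, Ne.symm hxy]
    · have h' := mt hpar.2 h
      simp [hN, realUnit, h, h', add_mulVec, neg_mulVec, smul_mulVec, unitMat_mulVec, Ne.symm hxy,
        Ne.symm hxy']
  refine ⟨?_, ?_, (exp_mulVec_rot N θ hx0 hy0).1, (exp_mulVec_rot N θ hx0 hy0).2,
    fun w a b c e => exp_mulVec_of_eq_zero _ ?_⟩
  · have u1 := realUnit_isReal p y x θ
    have u2 := realUnit_isReal p x y (-θ : ℝ)
    unfold IsRealBlk at u1 u2 ⊢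
    rw [Matrix.map_add _ star_add, Matrix.mul_add, u1, u2, Matrix.add_mul]
  · simp only [hN, realUnit]
    split_ifs <;>
      simp [trace_unitMat, hxy, Ne.symm hxy, hff, Ne.symm hff]
  · simp only [hN, realUnit]
    split_ifs <;>
      simp [add_mulVec, neg_mulVec, smul_mulVec, unitMat_mulVec, Ne.symm a, Ne.symm b, Ne.symm c,
        Ne.symm e]

/-- Equal signs on two different unsigned coordinates (the dummy flip). -/
theorem sign_target {β : Finset (ℕ × ℕ)} (p : β) (h1 : p.1.1 ≠ 0) (h2 : p.1.2 ≠ 0)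
    (x y : BlkIdx p.1) (hxy : y ≠ x) (hxy' : y ≠ blkFlip p.1 x) :
    ∃ X : BlkAlg β, IsTangent X ∧ (∀ q, q ≠ p → exp X q = 1) ∧
      exp X p *ᵥ blkVec p.1 x = -blkVec p.1 x ∧ exp X p *ᵥ blkVec p.1 y = -blkVec p.1 y ∧
      ∀ w, w ≠ x → w ≠ blkFlip p.1 x → w ≠ y → w ≠ blkFlip p.1 y →
        exp X p *ᵥ blkVec p.1 w = blkVec p.1 w := by
  obtain ⟨hR, htr, r1, r2, r3⟩ := plane_rot p.1 x y hxy hxy' Real.pi
  refine exists_target p h1 h2 hR htr (Q := fun E =>
    E *ᵥ blkVec p.1 x = -blkVec p.1 x ∧ E *ᵥ blkVec p.1 y = -blkVec p.1 y ∧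
      ∀ w, w ≠ x → w ≠ blkFlip p.1 x → w ≠ y → w ≠ blkFlip p.1 y →
        E *ᵥ blkVec p.1 w = blkVec p.1 w) ⟨?_, ?_, r3⟩
  · simpa using r1
  · simpa using r2

/-- A signed exchange of two unsigned coordinates of the same parity. -/
theorem swap_target {β : Finset (ℕ × ℕ)} (p : β) (h1 : p.1.1 ≠ 0) (h2 : p.1.2 ≠ 0)
    (x y : BlkIdx p.1) (hxy : y ≠ x) (hxy' : y ≠ blkFlip p.1 x) :
    ∃ X : BlkAlg β, IsTangent X ∧ (∀ q, q ≠ p → exp X q = 1) ∧
      exp X p *ᵥ blkVec p.1 x = blkVec p.1 y ∧ exp X p *ᵥ blkVec p.1 y = -blkVec p.1 x ∧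
      (∀ w, w ≠ x → w ≠ blkFlip p.1 x → w ≠ y → w ≠ blkFlip p.1 y →
        exp X p *ᵥ blkVec p.1 w = blkVec p.1 w) := by
  obtain ⟨hR, htr, r1, r2, r3⟩ := plane_rot p.1 x y hxy hxy' (Real.pi / 2)
  refine exists_target p h1 h2 hR htr (Q := fun E =>
    E *ᵥ blkVec p.1 x = blkVec p.1 y ∧ E *ᵥ blkVec p.1 y = -blkVec p.1 x ∧
      (∀ w, w ≠ x → w ≠ blkFlip p.1 x → w ≠ y → w ≠ blkFlip p.1 y →
        E *ᵥ blkVec p.1 w = blkVec p.1 w)) ⟨?_, ?_, r3⟩
  · simpa using r1
  · simpa using r2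

end Vale.Agent.P225
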