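import Vale.Agent.P225.Group.Targets.Reach
import Vale.Agent.P225.Group.Targets.Flat

/-!
P225, module D: on a finite family of gauge blocks the words in `exp (s κ S_i T_k)` reach, as
regular values, every exponential of a traceless matrix commuting with the real structure.
Definitions are in `Group.Targets.Defs`.
-/

noncomputable section

namespace Vale.Agent.P225

open NormedSpace Matrix SU2 Filter Topology
open scoped ComplexOrder Kronecker Matrix.Norms.L2Operator

theorem tangent_mem_bracketSpan {β : Finset (ℕ × ℕ)} {κ : ℕ × ℕ → ℝ} (hκ : Separates β κ)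
    {X : BlkAlg β} (hX : IsTangent X) : X ∈ bracketSpan (ctrlGen β κ) :=
  tangent_mem_aux hκ hX

theorem ctrlWord_isTarget (β : Finset (ℕ × ℕ)) (κ : ℕ × ℕ → ℝ) {n : ℕ}
    (i : Fin n → Fin 3 × Fin 3) (x : Fin n → ℝ) : IsTarget (ctrlWord β κ i x) := by
  rw [ctrlWord]
  refine List.prod_induction IsTarget ?_ IsTarget.one ?_
  · exact fun a b ha hb => ha.mul hb
  · intro a ha
    obtain ⟨k, rfl⟩ := List.mem_ofFn.1 ha
    exact exp_isTarget ((tanSub β).smul_mem _ (ctrlGen_tangent β κ _))

theorem affWord_wordVal {β : Finset (ℕ × ℕ)} {κ : ℕ × ℕ → ℝ} {m : ℕ}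
    (w : List ((Fin 3 × Fin 3) × ℝ)) :
    AffWord β κ (fun _ : Fin m → ℝ => wordVal (ctrlGen β κ) w) := by
  induction w with
  | nil => exact AffWord.one
  | cons q w ih => exact (AffWord.letter q.1 q.2).mul ih

/-- Every exponential of a tangent element is a regular value of some word, in a form ready for a
fixed point argument: a linear correction maps a ball to itself and detects equality in the
group. -/
theorem exists_regular_word {β : Finset (ℕ × ℕ)} {κ : ℕ × ℕ → ℝ} (hκ : Separates β κ)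
    {X : BlkAlg β} (hX : IsTangent X) :
    ∃ (n m : ℕ) (i : Fin n → Fin 3 × Fin 3) (x0 : Fin n → ℝ) (P : (Fin m → ℝ) →L[ℝ] (Fin n → ℝ))
      (r δ : ℝ) (L : BlkAlg β →L[ℝ] (Fin m → ℝ)),
      0 < r ∧ 0 < δ ∧ ctrlWord β κ i x0 = exp X ∧
      (∀ y ∈ Metric.closedBall (0 : Fin m → ℝ) r, ∀ M T : BlkAlg β,
        ‖M - ctrlWord β κ i (x0 + P y)‖ ≤ δ → ‖T - exp X‖ ≤ δ →
          y - L (M - T) ∈ Metric.closedBall (0 : Fin m → ℝ) r) ∧
      (∀ y ∈ Metric.closedBall (0 : Fin m → ℝ) r, ∀ M T : BlkAlg β,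
        ‖M - ctrlWord β κ i (x0 + P y)‖ ≤ δ → ‖T - exp X‖ ≤ δ → IsTarget M → IsTarget T →
          L (M - T) = 0 → M = T) := by
  classical
  obtain ⟨π, W, n0, w, j, D, hW, hinj, hD, hsurj, hval⟩ := exists_local_words hκ
  obtain ⟨w0, hw0⟩ := hval X hX
  set B := ctrlGen β κ
  set m := Module.finrank ℝ (tanSub β)
  let e : tanSub β ≃L[ℝ] (Fin m → ℝ) :=
    (LinearEquiv.ofFinrankEq (tanSub β) (Fin m → ℝ) (by simp [m])).toContinuousLinearEquiv
  obtain ⟨s, hs⟩ := (π.comp D : (Fin n0 → ℝ) →ₗ[ℝ] tanSub β).exists_rightInverse_of_surjective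
    (LinearMap.range_eq_top.2 hsurj)
  let Q : (Fin m → ℝ) →L[ℝ] (Fin n0 → ℝ) :=
    (LinearMap.toContinuousLinearMap s).comp (e.symm : (Fin m → ℝ) →L[ℝ] tanSub β)
  set ginv := wordVal B (wordRev w0)
  have hgg : exp X * ginv = 1 := hw0 ▸ wordVal_mul_rev B w0
  have hgg' : ginv * exp X = 1 := funext fun p => mul_eq_one_comm.1 (congrFun hgg p)
  set F : (Fin m → ℝ) → BlkAlg β := fun y => exp X * wordMap B w j (Q y)
  have hwm : ∀ y, AffWord β κ fun z : Fin n0 → ℝ =>
      wordConj B (w y) (exp (z y • B (j y))) := fun y =>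
    ((affWord_wordVal (w y)).mul (AffWord.param (j y) y)).mul (affWord_wordVal (wordRev (w y)))
  have hF : AffWord β κ F := by
    have h1 : AffWord β κ fun z : Fin n0 → ℝ => wordMap B w j z := by
      have := AffWord.list_prod
        ((List.finRange n0).map fun k (z : Fin n0 → ℝ) => wordConj B (w k) (exp (z k • B (j k))))
        (fun G hG => by obtain ⟨k, _, rfl⟩ := List.mem_map.1 hG; exact hwm k)
      simpa [wordMap, List.ofFn_eq_map, List.map_map, Function.comp_def] using this
    have := ((affWord_wordVal (β := β) (κ := κ) (m := n0) w0).mul h1).comp Q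
    simpa only [F, ← hw0] using this
  obtain ⟨n, i, x0, P, hP⟩ := hF
  have hwm0 : wordMap B w j 0 = 1 := by
    refine List.prod_eq_one fun a ha => ?_
    obtain ⟨k, rfl⟩ := List.mem_ofFn.1 ha
    simp [wordConj, wordVal_mul_rev]
  have hF0 : F 0 = exp X := by simp [F, hwm0]
  let L : BlkAlg β →L[ℝ] (Fin m → ℝ) :=
    (e : tanSub β →L[ℝ] (Fin m → ℝ)).comp (π.comp (ContinuousLinearMap.mul ℝ (BlkAlg β) ginv))
  have hL : ∀ d, L d = e (π (ginv * d)) := fun d => rfl
  -- the corrected map has derivative zero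
  have hg : HasStrictFDerivAt (fun y => y - L (F y)) (0 : (Fin m → ℝ) →L[ℝ] (Fin m → ℝ)) 0 := by
    have h1 : HasStrictFDerivAt F (exp X • D.comp Q) 0 := by
      have := hD
      rw [← map_zero Q] at this
      exact (this.comp (0 : Fin m → ℝ) Q.hasStrictFDerivAt).const_mul (exp X)
    refine ((hasStrictFDerivAt_id (0 : Fin m → ℝ)).sub
      (L.hasStrictFDerivAt.comp (0 : Fin m → ℝ) h1)).congr_fderiv ?_
    refine ContinuousLinearMap.ext fun y => ?_
    have hsy : π (D (s (e.symm y))) = e.symm y := LinearMap.congr_fun hs (e.symm y)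
    simp [hL, Q, ← mul_assoc, hgg', hsy]
  obtain ⟨r1, hr1, hball⟩ := Metric.eventually_nhds_iff_ball.1
    (hg.hasFDerivAt.isLittleO.def (show (0 : ℝ) < 1/4 by norm_num))
  obtain ⟨η, hη, hηW⟩ := Metric.mem_nhds_iff.1
    (((continuous_const_mul ginv).tendsto (exp X)) (by rw [hgg']; exact hW))
  have hFc : ContinuousAt F 0 := by
    have h := hD.continuousAt
    rw [← map_zero Q] at h
    exact continuousAt_const.mul (h.comp Q.continuous.continuousAt)
  obtain ⟨r2, hr2, hF2⟩ := Metric.continuousAt_iff.1 hFc (η/2) (half_pos hη)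
  set r := min r1 r2 / 2
  have hr : 0 < r := half_pos (lt_min hr1 hr2)
  set δ := min (η/3) (r / (4 * (‖L‖ + 1)))
  have hδ : 0 < δ := lt_min (by positivity) (by positivity)
  refine ⟨n, m, i, x0, P, r, δ, L, hr, hδ, ?_, fun y hy M T hM hT => ?_,
    fun y hy M T hM hT tM tT h0 => ?_⟩
  · have := hP 0
    rwa [map_zero, add_zero, hF0] at this
  · rw [hP y] at hM
    rw [mem_closedBall_zero_iff] at hy ⊢
    have hy1 : y ∈ Metric.ball (0 : Fin m → ℝ) r1 := by
      rw [mem_ball_zero_iff]
      linarith [min_le_left r1 r2, show r = min r1 r2 / 2 from rfl]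
    have hb := hball y hy1
    simp only [_root_.zero_apply, sub_zero, zero_sub, sub_neg_eq_add, hF0] at hb
    have hLd : ∀ d : BlkAlg β, ‖d‖ ≤ δ → ‖L d‖ ≤ r / 4 := by
      intro d hd
      calc ‖L d‖ ≤ (‖L‖ + 1) * δ := (L.le_opNorm d).trans
            (mul_le_mul (by linarith) hd (norm_nonneg d) (by positivity))
        _ ≤ (‖L‖ + 1) * (r / (4 * (‖L‖ + 1))) := by gcongr; exact min_le_right _ _
        _ = r / 4 := by field_simp
    have e1 : y - L (M - T) = (y - L (F y) + L (exp X)) + (L (T - exp X) - L (M - F y)) := by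
      simp only [map_sub]; abel
    rw [e1]
    calc _ ≤ ‖y - L (F y) + L (exp X)‖ + (‖L (T - exp X)‖ + ‖L (M - F y)‖) :=
          (norm_add_le _ _).trans (add_le_add le_rfl (norm_sub_le _ _))
      _ ≤ r := by linarith [hLd _ hT, hLd _ hM]
  · rw [hP y] at hM
    have hy2 : dist y 0 < r2 := by
      rw [Metric.mem_closedBall] at hy
      linarith [min_le_right r1 r2, show r = min r1 r2 / 2 from rfl]
    have hFy := hF2 hy2
    rw [hF0, dist_eq_norm] at hFy
    have hδη : δ ≤ η / 3 := min_le_left _ _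
    have hMb : M ∈ Metric.ball (exp X) η := by
      rw [mem_ball_iff_norm, show M - exp X = (M - F y) + (F y - exp X) by abel]
      linarith [norm_add_le (M - F y) (F y - exp X)]
    have hTb : T ∈ Metric.ball (exp X) η := by
      rw [mem_ball_iff_norm]; linarith
    have hginv : IsTarget ginv := wordVal_isTarget _
    have hπ : π (ginv * M) = π (ginv * T) := by
      rw [hL, e.map_eq_zero_iff, mul_sub, map_sub, sub_eq_zero] at h0
      exact h0
    have := congrArg (exp X * ·)
      (hinj _ (hηW hMb) _ (hηW hTb) (hginv.mul tM) (hginv.mul tT) hπ)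
    simpa only [← mul_assoc, hgg, one_mul] using this

end Vale.Agent.P225
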