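import Mathlib

/-!
P225, module D: the algebraic core of the Lie lemma on one block. If a subspace closed under
brackets contains `S_α`, `T_β` and `S_α T_β` for two commuting `so(3)` families, it contains every
commutator of the algebra they generate.
-/

namespace Vale.Agent.P225

variable {R : Type*} [Ring R] [Algebra ℝ R]

/-- A subspace closed under brackets. -/
def IsBracketClosed (g : Submodule ℝ R) : Prop := ∀ x ∈ g, ∀ y ∈ g, x * y - y * x ∈ g

/-- An `so(3)` family: each member is a bracket of two members, and the Casimir is a nonzero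
scalar. -/
structure IsSO3Family (S : Fin 3 → R) (c : ℝ) : Prop where
  bracket : ∀ k, ∃ i j, S i * S j - S j * S i = S k
  casimir : ∑ k, S k * S k = c • (1 : R)
  casimir_ne : c ≠ 0

variable {g : Submodule ℝ R} {S T : Fin 3 → R} {cS cT : ℝ}

/-- The algebra generated by a family. -/
abbrev famAlg (S : Fin 3 → R) : Subalgebra ℝ R := Algebra.adjoin ℝ (Set.range S)

theorem commute_famAlg (hST : ∀ i j, Commute (S i) (T j)) {A B : R} (hA : A ∈ famAlg S)
    (hB : B ∈ famAlg T) : Commute A B := by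
  induction hA using Algebra.adjoin_induction with
  | mem x hx =>
    induction hB using Algebra.adjoin_induction with
    | mem y hy =>
      obtain ⟨i, rfl⟩ := hx
      obtain ⟨j, rfl⟩ := hy
      exact hST i j
    | algebraMap r => exact (Algebra.commutes r x).symm
    | add y z _ _ h h' => exact h.add_right h'
    | mul y z _ _ h h' => exact h.mul_right h'
  | algebraMap r => exact Algebra.commutes r B
  | add x y _ _ h h' => exact h.add_left h'
  | mul x y _ _ h h' => exact h.mul_left h'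

/-- A subspace containing `1`, stable under right multiplication by the generators, contains the
generated algebra. -/
theorem famAlg_le_of_mul_mem (V : Submodule ℝ R) (h1 : (1 : R) ∈ V)
    (hm : ∀ A ∈ V, ∀ i, A * S i ∈ V) {A : R} (hA : A ∈ famAlg S) : A ∈ V := by
  suffices ∀ x ∈ V, x * A ∈ V by simpa using this 1 h1
  induction hA using Algebra.adjoin_induction with
  | mem x hx => obtain ⟨i, rfl⟩ := hx; exact fun y hy => hm y hy i
  | algebraMap r =>
    intro y hy
    rw [← Algebra.commutes, ← Algebra.smul_def]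
    exact V.smul_mem r hy
  | add x y _ _ h h' => intro z hz; rw [mul_add]; exact V.add_mem (h z hz) (h' z hz)
  | mul x y _ _ h h' => intro z hz; rw [← mul_assoc]; exact h' _ (h z hz)

/-- Left factors: `A T_k` is in `g` for every `A` in the algebra generated by `S`. -/
theorem mul_gen_mem (hg : IsBracketClosed g) (hST : ∀ i j, Commute (S i) (T j))
    (hT : IsSO3Family T cT) (h1 : ∀ k, T k ∈ g) (hS1 : ∀ i, S i ∈ g)
    (h2 : ∀ i k, S i * T k ∈ g) {A : R} (hA : A ∈ famAlg S) : ∀ k, A * T k ∈ g := by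
  let V : Submodule ℝ R := (famAlg S).toSubmodule ⊓ ⨅ k, g.comap (LinearMap.mulRight ℝ (T k))
  suffices A ∈ V by
    intro k
    exact (Submodule.mem_iInf _).1 this.2 k
  refine famAlg_le_of_mul_mem V ⟨(famAlg S).one_mem, (Submodule.mem_iInf _).2 fun k => by simpa using h1 k⟩
    ?_ hA
  rintro B ⟨hB, hB'⟩ i
  have hBk : ∀ k, B * T k ∈ g := fun k => (Submodule.mem_iInf _).1 hB' k
  refine ⟨(famAlg S).mul_mem hB (Algebra.subset_adjoin ⟨i, rfl⟩), (Submodule.mem_iInf _).2 fun m => ?_⟩
  obtain ⟨k, l, hkl⟩ := hT.bracket m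
  have cB : ∀ k, Commute B (T k) := fun k =>
    commute_famAlg hST hB (Algebra.subset_adjoin ⟨k, rfl⟩)
  have e1 := g.sub_mem (hg _ (hBk k) _ (h2 i l)) (hg _ (hBk l) _ (h2 i k))
  have e2 := hg _ (hBk m) _ (hS1 i)
  have r1 : B * T k * (S i * T l) - S i * T l * (B * T k) -
      (B * T l * (S i * T k) - S i * T k * (B * T l)) = (B * S i + S i * B) * T m := by
    have a : ∀ p q, B * T p * (S i * T q) = B * S i * (T p * T q) := fun p q => by
      rw [mul_assoc, ← mul_assoc (T p), ((hST i p).symm).eq]; noncomm_ring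
    have b : ∀ p q, S i * T p * (B * T q) = S i * B * (T p * T q) := fun p q => by
      rw [mul_assoc, ← mul_assoc (T p), ((cB p).symm).eq]; noncomm_ring
    rw [a, a, b, b, ← hkl]
    noncomm_ring
  have r2 : B * T m * S i - S i * (B * T m) = (B * S i - S i * B) * T m := by
    rw [mul_assoc B, ((hST i m).symm).eq]; noncomm_ring
  rw [r1] at e1
  rw [r2] at e2
  have h := g.smul_mem (2⁻¹ : ℝ) (g.add_mem e1 e2)
  have : (2⁻¹ : ℝ) • ((B * S i + S i * B) * T m + (B * S i - S i * B) * T m) = B * S i * T m := by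
    rw [← add_mul, show B * S i + S i * B + (B * S i - S i * B) = (2 : ℝ) • (B * S i) by
      rw [two_smul]; abel, smul_mul_assoc, smul_smul, inv_mul_cancel₀ two_ne_zero, one_smul]
  rw [this] at h
  simpa using h

/-- The commutator span of an algebra. -/
abbrev commSpan (S : Fin 3 → R) : Submodule ℝ R :=
  Submodule.span ℝ {x | ∃ A ∈ famAlg S, ∃ B ∈ famAlg S, A * B - B * A = x}

/-- Commutators times anything in the other algebra are in `g`, provided commutators are spanned
by brackets of commutators. -/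
theorem comm_mul_mem (hg : IsBracketClosed g) (hST : ∀ i j, Commute (S i) (T j))
    (hT : IsSO3Family T cT) (h1 : ∀ k, T k ∈ g) (hS1 : ∀ i, S i ∈ g)
    (h2 : ∀ i k, S i * T k ∈ g)
    (hperf : commSpan S ≤
      Submodule.span ℝ {x | ∃ C ∈ commSpan S, ∃ D ∈ commSpan S, C * D - D * C = x})
    {B : R} (hB : B ∈ famAlg T) : ∀ C ∈ commSpan S, C * B ∈ g := by
  have hA := fun (A : R) (hA : A ∈ famAlg S) k => mul_gen_mem hg hST hT h1 hS1 h2 hA k
  have hCmem : commSpan S ≤ (famAlg S).toSubmodule := Submodule.span_le.2 (by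
    rintro x ⟨A, hA, A', hA', rfl⟩; exact (famAlg S).sub_mem ((famAlg S).mul_mem hA hA') ((famAlg S).mul_mem hA' hA))
  have hcS : ∀ C ∈ commSpan S, ∀ k, Commute C (T k) := fun C hC k =>
    commute_famAlg hST (hCmem hC) (Algebra.subset_adjoin ⟨k, rfl⟩)
  let V : Submodule ℝ R :=
    (famAlg T).toSubmodule ⊓ ⨅ C : commSpan S, g.comap (LinearMap.mulLeft ℝ (C : R))
  suffices B ∈ V by
    intro C hC
    exact (Submodule.mem_iInf _).1 this.2 ⟨C, hC⟩
  refine famAlg_le_of_mul_mem V ⟨(famAlg T).one_mem, (Submodule.mem_iInf _).2 ?_⟩ ?_ hB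
  · rintro ⟨C, hC⟩
    suffices C ∈ g by simpa using this
    refine Submodule.span_le.2 ?_ hC
    rintro x ⟨A, hA', A', hA'', rfl⟩
    have hs : ∑ k, (A * T k * (A' * T k) - A' * T k * (A * T k)) ∈ g :=
      Submodule.sum_mem _ fun k _ => hg _ (hA A hA' k) _ (hA A' hA'' k)
    have he : ∑ k, (A * T k * (A' * T k) - A' * T k * (A * T k)) =
        cT • (A * A' - A' * A) := by
      have a : ∀ X Y, Y ∈ famAlg S → ∀ k, X * T k * (Y * T k) = X * Y * (T k * T k) :=
        fun X Y hY k => by
          rw [mul_assoc, ← mul_assoc (T k),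
            (commute_famAlg hST hY (Algebra.subset_adjoin ⟨k, rfl⟩)).symm.eq]
          noncomm_ring
      simp_rw [a A A' hA'', a A' A hA', ← sub_mul]
      rw [← Finset.mul_sum, hT.casimir, mul_smul_comm, mul_one]
    rw [he] at hs
    have := g.smul_mem cT⁻¹ hs
    rwa [smul_smul, inv_mul_cancel₀ hT.casimir_ne, one_smul] at this
  rintro D ⟨hD, hD'⟩ l
  have hCD : ∀ C ∈ commSpan S, C * D ∈ g := fun C hC =>
    (Submodule.mem_iInf _).1 hD' ⟨C, hC⟩
  have cD : ∀ X ∈ famAlg S, Commute X D := fun X hX => commute_famAlg hST hX hD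
  refine ⟨(famAlg T).mul_mem hD (Algebra.subset_adjoin ⟨l, rfl⟩), (Submodule.mem_iInf _).2 ?_⟩
  rintro ⟨C, hC⟩
  suffices C * (D * T l) ∈ g by simpa using this
  -- antisymmetric part
  have e2 : C * (D * T l) - C * (T l * D) ∈ g := by
    have := hg _ (hCD C hC) _ (h1 l)
    rwa [mul_assoc, ← mul_assoc (T l), (hcS C hC l).symm.eq, mul_assoc] at this
  -- symmetric part
  have e1 : C * (D * T l) + C * (T l * D) ∈ g := by
    let W : Submodule ℝ R := g.comap (LinearMap.mulRight ℝ (D * T l + T l * D))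
    suffices C ∈ W by simpa [W, mul_add] using this
    refine (hperf.trans (Submodule.span_le.2 ?_)) hC
    rintro x ⟨P, hP, Q, hQ, rfl⟩
    have hh := g.sub_mem (hg _ (hCD P hP) _ (hA Q (hCmem hQ) l))
      (hg _ (hCD Q hQ) _ (hA P (hCmem hP) l))
    have a : ∀ X Y, Y ∈ commSpan S → X * D * (Y * T l) = X * Y * (D * T l) := fun X Y hY => by
      rw [mul_assoc, ← mul_assoc D, (cD Y (hCmem hY)).symm.eq]; noncomm_ring
    have b : ∀ X Y, Y ∈ commSpan S → X * T l * (Y * D) = X * Y * (T l * D) := fun X Y hY => by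
      rw [mul_assoc, ← mul_assoc (T l), (hcS Y hY l).symm.eq]; noncomm_ring
    rw [a P Q hQ, a Q P hP, b Q P hP, b P Q hQ] at hh
    simp only [W, SetLike.mem_coe, Submodule.mem_comap, LinearMap.mulRight_apply]
    convert hh using 1
    noncomm_ring
  have h := g.smul_mem (2⁻¹ : ℝ) (g.add_mem e1 e2)
  rwa [show C * (D * T l) + C * (T l * D) + (C * (D * T l) - C * (T l * D)) =
      (2 : ℝ) • (C * (D * T l)) by rw [two_smul]; abel, smul_smul,
    inv_mul_cancel₀ two_ne_zero, one_smul] at h

/-- All commutators of the algebra generated by both families are in `g`. -/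
theorem commutator_mem (hg : IsBracketClosed g) (hST : ∀ i j, Commute (S i) (T j))
    (hS : IsSO3Family S cS) (hT : IsSO3Family T cT) (hS1 : ∀ i, S i ∈ g) (hT1 : ∀ k, T k ∈ g)
    (h2 : ∀ i k, S i * T k ∈ g)
    (hpS : commSpan S ≤
      Submodule.span ℝ {x | ∃ C ∈ commSpan S, ∃ D ∈ commSpan S, C * D - D * C = x})
    (hpT : commSpan T ≤
      Submodule.span ℝ {x | ∃ C ∈ commSpan T, ∃ D ∈ commSpan T, C * D - D * C = x})
    {A A' B B' : R} (hA : A ∈ famAlg S) (hA' : A' ∈ famAlg S) (hB : B ∈ famAlg T)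
    (hB' : B' ∈ famAlg T) :
    A * B * (A' * B') - A' * B' * (A * B) ∈ g := by
  have e1 : (A * A' - A' * A) * (B * B') ∈ g :=
    comm_mul_mem hg hST hT hT1 hS1 h2 hpS (mul_mem hB hB') _
      (Submodule.subset_span ⟨A, hA, A', hA', rfl⟩)
  have e2 : (B * B' - B' * B) * (A' * A) ∈ g :=
    comm_mul_mem hg (fun i j => (hST j i).symm) hS hS1 hT1
      (fun i k => by rw [← (hST k i).eq]; exact h2 k i) hpT (mul_mem hA' hA) _
      (Submodule.subset_span ⟨B, hB, B', hB', rfl⟩)
  have hc : Commute (A' * A) (B * B' - B' * B) :=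
    commute_famAlg hST (mul_mem hA' hA) (sub_mem (mul_mem hB hB') (mul_mem hB' hB))
  rw [← hc.eq] at e2
  have a : A * B * (A' * B') = A * A' * (B * B') := by
    rw [mul_assoc, ← mul_assoc B, (commute_famAlg hST hA' hB).symm.eq]; noncomm_ring
  have b : A' * B' * (A * B) = A' * A * (B' * B) := by
    rw [mul_assoc, ← mul_assoc B', (commute_famAlg hST hA hB').symm.eq]; noncomm_ring
  rw [a, b, show A * A' * (B * B') - A' * A * (B' * B) =
    (A * A' - A' * A) * (B * B') + A' * A * (B * B' - B' * B) by noncomm_ring]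
  exact g.add_mem e1 e2

end Vale.Agent.P225
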