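import Vale.Agent.P225.Group.BlockLie

/-!
P225, module D: separating finitely many blocks. `K` and the Casimirs are central; from `K S_i T_k`
a bracket-closed subspace gets `f S_i`, `f T_k` for every `f` in `cT K² ℝ[cS K², cT K²]`
(respectively with `S` and `T` exchanged).
-/

namespace Vale.Agent.P225



variable {R : Type*} [Ring R] [Algebra ℝ R] {g : Submodule ℝ R} {S T : Fin 3 → R} {K CS CT : R}

/-- Hypotheses on a direct sum of blocks. -/
structure BlockData (g : Submodule ℝ R) (S T : Fin 3 → R) (K CS CT : R) : Prop where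
  closed : IsBracketClosed g
  comm : ∀ i j, Commute (S i) (T j)
  bracketS : ∀ k, ∃ i j, S i * S j - S j * S i = S k
  bracketT : ∀ k, ∃ i j, T i * T j - T j * T i = T k
  casS : ∑ k, S k * S k = CS
  casT : ∑ k, T k * T k = CT
  central : ∀ x, Commute K x ∧ Commute CS x ∧ Commute CT x
  gen : ∀ i k, K * S i * T k ∈ g

/-- Exchange of the two families. -/
theorem BlockData.symm (h : BlockData g S T K CS CT) : BlockData g T S K CT CS where
  closed := h.closed
  comm i j := (h.comm j i).symm
  bracketS := h.bracketT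
  bracketT := h.bracketS
  casS := h.casT
  casT := h.casS
  central x := ⟨(h.central x).1, (h.central x).2.2, (h.central x).2.1⟩
  gen i k := by rw [mul_assoc, ← (h.comm k i).eq, ← mul_assoc]; exact h.gen k i

/-- `f` is central and `f S_i` is in `g`. -/
def IsFactor (g : Submodule ℝ R) (S : Fin 3 → R) (f : R) : Prop :=
  (∀ x, Commute f x) ∧ ∀ i, f * S i ∈ g

theorem IsFactor.add {f f' : R} (a : IsFactor g S f) (b : IsFactor g S f') :
    IsFactor g S (f + f') :=
  ⟨fun x => (a.1 x).add_left (b.1 x), fun i => by rw [add_mul]; exact g.add_mem (a.2 i) (b.2 i)⟩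

theorem IsFactor.smul {f : R} (a : IsFactor g S f) (c : ℝ) : IsFactor g S (c • f) :=
  ⟨fun x => (a.1 x).smul_left c, fun i => by rw [smul_mul_assoc]; exact g.smul_mem c (a.2 i)⟩

theorem IsFactor.mul (h : BlockData g S T K CS CT) {f f' : R} (a : IsFactor g S f)
    (b : IsFactor g S f') : IsFactor g S (f * f') := by
  refine ⟨fun x => (a.1 x).mul_left (b.1 x), fun k => ?_⟩
  obtain ⟨i, j, hij⟩ := h.bracketS k
  have := h.closed _ (a.2 i) _ (b.2 j)
  rwa [← hij, show f * f' * (S i * S j - S j * S i) =
    f * S i * (f' * S j) - f' * S j * (f * S i) by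
      rw [mul_assoc f (S i), ← mul_assoc (S i), (b.1 (S i)).symm.eq, mul_assoc f' (S j),
        ← mul_assoc (S j) f, (a.1 (S j)).symm.eq, ← mul_assoc f' (f * S j), ← mul_assoc f' f,
        ← (a.1 f').eq]
      noncomm_ring]

theorem IsFactor.mulK (h : BlockData g S T K CS CT) {f : R} (a : IsFactor g S f) :
    ∀ i k, f * K * S i * T k ∈ g := by
  intro m k
  obtain ⟨i, j, hij⟩ := h.bracketS m
  have := h.closed _ (a.2 i) _ (h.gen j k)
  rwa [← hij, show f * K * (S i * S j - S j * S i) * T k =
    f * S i * (K * S j * T k) - K * S j * T k * (f * S i) by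
      have cK := fun x => (h.central x).1
      rw [mul_assoc (K * S j) (T k), ← mul_assoc (T k), (a.1 (T k)).symm.eq, mul_assoc f (T k),
        (h.comm i k).symm.eq, mul_assoc f (S i), ← mul_assoc (S i), ← mul_assoc (S i) K,
        (cK (S i)).symm.eq, mul_assoc K (S j) _, ← mul_assoc (S j) f, (a.1 (S j)).symm.eq,
        ← mul_assoc K (f * S j), ← mul_assoc K f, (cK f).eq]
      noncomm_ring]

/-- Passing to the other family multiplies by `CS K²`. -/
theorem IsFactor.swap (h : BlockData g S T K CS CT) {f : R} (hf : ∀ x, Commute f x)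
    (hfK : ∀ i k, f * K * S i * T k ∈ g) : IsFactor g T (CS * K * K * f) := by
  have cK := fun x => (h.central x).1
  refine ⟨fun x => (((h.central x).2.1.mul_left (cK x)).mul_left (cK x)).mul_left (hf x), fun m => ?_⟩
  obtain ⟨k, l, hkl⟩ := h.bracketT m
  have hs : ∑ i, (f * K * S i * T k * (K * S i * T l) - K * S i * T l * (f * K * S i * T k)) ∈ g :=
    Submodule.sum_mem _ fun i _ => h.closed _ (hfK i k) _ (h.gen i l)
  have he : ∀ i, f * K * S i * T k * (K * S i * T l) - K * S i * T l * (f * K * S i * T k) =
      S i * S i * (K * K * f * (T k * T l - T l * T k)) := by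
    intro i
    have c1 : ∀ A p q, (∀ x, Commute A x) → ∀ B, (∀ x, Commute B x) →
        A * S i * T p * (B * S i * T q) = S i * S i * (A * B * (T p * T q)) := by
      intro A p q hA B hB
      calc A * S i * T p * (B * S i * T q) = A * S i * (T p * B) * (S i * T q) := by noncomm_ring
        _ = A * S i * B * (T p * S i) * T q := by rw [(hB (T p)).symm.eq]; noncomm_ring
        _ = A * (S i * B) * (S i * T p) * T q := by rw [(h.comm i p).symm.eq]; noncomm_ring
        _ = A * B * (S i * S i) * (T p * T q) := by rw [(hB (S i)).symm.eq]; noncomm_ring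
        _ = _ := by rw [((hA _).mul_left (hB _)).eq]; noncomm_ring
    have cfK : ∀ x, Commute (f * K) x := fun x => (hf x).mul_left (cK x)
    rw [c1 _ k l cfK _ cK, c1 _ l k cK _ cfK]
    have e : f * K * K = K * K * f := by
      rw [mul_assoc]; exact (((cK f).mul_left (cK f)).eq).symm
    have e' : K * (f * K) = K * K * f := by rw [(hf K).eq, ← mul_assoc]
    rw [e, e']
    noncomm_ring
  rw [Finset.sum_congr rfl fun i _ => he i, ← Finset.sum_mul, h.casS, hkl] at hs
  simpa [mul_assoc] using hs

/-- Every `p(f₁, f₂) * f₂` is a factor for `S`, where `f₁ = CS K²`, `f₂ = CT K²`. -/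
theorem isFactor_poly (h : BlockData g S T K CS CT) (f₁ f₂ : R) (h₁ : f₁ = CS * K * K)
    (h₂ : f₂ = CT * K * K) (m n : ℕ) : IsFactor g S (f₁ ^ m * f₂ ^ (n + 1)) := by
  have b2 : IsFactor g S f₂ := by
    have := IsFactor.swap h.symm (f := 1) Commute.one_left (by simpa using h.symm.gen)
    simpa [h₂] using this
  have b1 : IsFactor g T f₁ := by
    have := IsFactor.swap h (f := 1) Commute.one_left (by simpa using h.gen)
    simpa [h₁] using this
  have bm : ∀ m, IsFactor g T (f₁ ^ (m + 1)) := by
    intro m
    induction m with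
    | zero => simpa using b1
    | succ m ih => rw [pow_succ]; exact IsFactor.mul h.symm ih b1
  have pn : ∀ n, IsFactor g S (f₂ ^ (n + 1)) := by
    intro n
    induction n with
    | zero => simpa using b2
    | succ n ih => rw [pow_succ]; exact IsFactor.mul h ih b2
  have hm : IsFactor g S (f₁ ^ m * f₂) := by
    cases m with
    | zero => simpa using b2
    | succ m =>
      have := IsFactor.swap h.symm (bm m).1 (fun i k => (IsFactor.mulK h.symm (bm m)) i k)
      rw [← h₂, ← ((bm m).1 f₂).eq] at this
      exact this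
  cases n with
  | zero => simpa using hm
  | succ n =>
    rw [pow_succ' f₂, ← mul_assoc]
    exact IsFactor.mul h hm (pn n)

end Vale.Agent.P225
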