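import Mathlib

/-!
P225, module D: words in one-parameter subgroups `exp (s • B i)` of a finite-dimensional real
algebra. The span of the conjugates of the `B i` by words is invariant under every `ad (B j)`, so
some product of conjugated one-parameter subgroups has every element of the generated bracket
algebra in the range of its derivative at the identity.
-/

noncomputable section

namespace Vale.Agent.P225

open NormedSpace Filter Topology

variable {𝔸 : Type*} [NormedRing 𝔸] [NormedAlgebra ℝ 𝔸] [CompleteSpace 𝔸] {ι : Type*}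

/-- The element represented by a word, a list of `(generator, time)`. -/
def wordVal (B : ι → 𝔸) : List (ι × ℝ) → 𝔸
  | [] => 1
  | q :: w => exp (q.2 • B q.1) * wordVal B w

/-- The inverse word. -/
def wordRev (w : List (ι × ℝ)) : List (ι × ℝ) := (w.map fun q => (q.1, -q.2)).reverse

omit [CompleteSpace 𝔸] in
theorem wordVal_append (B : ι → 𝔸) (v w : List (ι × ℝ)) :
    wordVal B (v ++ w) = wordVal B v * wordVal B w := by
  induction v with
  | nil => simp [wordVal]
  | cons q v ih => simp [wordVal, ih, mul_assoc]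

theorem exp_mul_exp_neg (X : 𝔸) : exp X * exp (-X) = 1 := by
  letI : NormedAlgebra ℚ 𝔸 := NormedAlgebra.restrictScalars ℚ ℝ 𝔸
  rw [← exp_add_of_commute (Commute.refl X).neg_right, add_neg_cancel, exp_zero]

theorem wordVal_mul_rev (B : ι → 𝔸) (w : List (ι × ℝ)) :
    wordVal B w * wordVal B (wordRev w) = 1 := by
  induction w with
  | nil => simp [wordVal, wordRev]
  | cons q w ih =>
    have : wordRev (q :: w) = wordRev w ++ [(q.1, -q.2)] := by simp [wordRev]
    rw [this, wordVal_append]
    simp only [wordVal, mul_one, neg_smul]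
    rw [mul_assoc, ← mul_assoc (wordVal B w), ih, one_mul, exp_mul_exp_neg]

/-- Conjugate of `Y` by a word. -/
def wordConj (B : ι → 𝔸) (w : List (ι × ℝ)) (Y : 𝔸) : 𝔸 :=
  wordVal B w * Y * wordVal B (wordRev w)

/-- The span of all conjugates of the generators by words. -/
def orbitSpan (B : ι → 𝔸) : Submodule ℝ 𝔸 :=
  Submodule.span ℝ (Set.range fun q : List (ι × ℝ) × ι => wordConj B q.1 (B q.2))

omit [CompleteSpace 𝔸] in
theorem gen_mem_orbitSpan (B : ι → 𝔸) (i : ι) : B i ∈ orbitSpan B :=
  Submodule.subset_span ⟨([], i), by simp [wordConj, wordVal, wordRev]⟩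

theorem exp_conj_mem_orbitSpan (B : ι → 𝔸) (j : ι) (s : ℝ) {Y : 𝔸} (hY : Y ∈ orbitSpan B) :
    exp (s • B j) * Y * exp (-(s • B j)) ∈ orbitSpan B := by
  refine Submodule.span_induction ?_ ?_ ?_ ?_ hY
  · rintro _ ⟨⟨w, i⟩, rfl⟩
    refine Submodule.subset_span ⟨((j, s) :: w, i), ?_⟩
    have : wordRev ((j, s) :: w) = wordRev w ++ [(j, -s)] := by simp [wordRev]
    simp [wordConj, wordVal, this, wordVal_append, mul_assoc]
  · simp
  · intro x y _ _ hx hy
    rw [mul_add, add_mul]
    exact add_mem hx hy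
  · intro c x _ hx
    rw [mul_smul_comm, smul_mul_assoc]
    exact Submodule.smul_mem _ c hx

theorem bracket_mem_orbitSpan [FiniteDimensional ℝ 𝔸] (B : ι → 𝔸) (j : ι) {Y : 𝔸}
    (hY : Y ∈ orbitSpan B) : B j * Y - Y * B j ∈ orbitSpan B := by
  have hcl : IsClosed (orbitSpan B : Set 𝔸) := Submodule.closed_of_finiteDimensional _
  have h1 := hasDerivAt_exp_smul_const (B j) (0 : ℝ)
  have h2 := hasDerivAt_exp_smul_const (-B j) (0 : ℝ)
  have hd := (h1.mul_const Y).mul h2
  simp only [zero_smul, exp_zero, one_mul, mul_one] at hd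
  have hlim := hd.tendsto_slope_zero_right
  refine hcl.mem_of_tendsto (b := 𝓝[>] (0 : ℝ)) ?_ (Eventually.of_forall fun t => ?_)
    (f := fun t : ℝ => t⁻¹ • (exp (t • B j) * Y * exp (t • -B j) - Y))
  · convert hlim using 2 <;> simp [sub_eq_add_neg]
  · refine Submodule.smul_mem _ _ (sub_mem ?_ hY)
    simpa using exp_conj_mem_orbitSpan B j t hY

/-- The smallest subspace containing the generators and closed under brackets with them: it is the
Lie algebra they generate. -/
def bracketSpan (B : ι → 𝔸) : Submodule ℝ 𝔸 :=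
  sInf {V | (∀ i, B i ∈ V) ∧ ∀ i, ∀ Y ∈ V, B i * Y - Y * B i ∈ V}

theorem bracketSpan_le_orbitSpan [FiniteDimensional ℝ 𝔸] (B : ι → 𝔸) :
    bracketSpan B ≤ orbitSpan B :=
  sInf_le ⟨gen_mem_orbitSpan B, fun i _ hY => bracket_mem_orbitSpan B i hY⟩

/-- Finitely many conjugated generators span the generated bracket algebra. -/
theorem exists_words_span [FiniteDimensional ℝ 𝔸] (B : ι → 𝔸) :
    ∃ (n : ℕ) (w : Fin n → List (ι × ℝ)) (i : Fin n → ι),
      bracketSpan B ≤ Submodule.span ℝ (Set.range fun k => wordConj B (w k) (B (i k))) := by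
  obtain ⟨t, ht, hts, hli⟩ := exists_linearIndependent ℝ
    (Set.range fun q : List (ι × ℝ) × ι => wordConj B q.1 (B q.2))
  have : Fintype t := by
    refine Set.Finite.fintype ?_
    exact LinearIndependent.setFinite hli
  obtain ⟨n, ⟨e⟩⟩ := Finite.exists_equiv_fin t
  choose q hq using fun k : Fin n => ht (e.symm k).2
  refine ⟨n, fun k => (q k).1, fun k => (q k).2, (bracketSpan_le_orbitSpan B).trans ?_⟩
  rw [orbitSpan, ← hts]
  refine Submodule.span_mono fun x hx => ⟨e ⟨x, hx⟩, ?_⟩
  simp [hq]

/-- The word map: each conjugated one-parameter subgroup moved by one coordinate. -/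
def wordMap (B : ι → 𝔸) {n : ℕ} (w : Fin n → List (ι × ℝ)) (i : Fin n → ι) (x : Fin n → ℝ) :
    𝔸 :=
  (List.ofFn fun k => wordConj B (w k) (exp (x k • B (i k)))).prod

theorem wordMap_hasStrictFDerivAt (B : ι → 𝔸) {n : ℕ} (w : Fin n → List (ι × ℝ))
    (i : Fin n → ι) :
    HasStrictFDerivAt (wordMap B w i)
      (∑ k, (ContinuousLinearMap.proj (R := ℝ) (φ := fun _ : Fin n => ℝ) k).smulRight
        (wordConj B (w k) (B (i k)))) 0 := by
  have hf : ∀ k : Fin n, HasStrictFDerivAt
      (fun x : Fin n → ℝ => wordConj B (w k) (exp (x k • B (i k))))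
      ((ContinuousLinearMap.proj (R := ℝ) (φ := fun _ : Fin n => ℝ) k).smulRight
        (wordConj B (w k) (B (i k)))) 0 := by
    intro k
    have h := (((hasStrictDerivAt_exp_smul_const (B (i k)) (0 : ℝ)).const_mul
      (wordVal B (w k))).mul_const (wordVal B (wordRev (w k)))).hasStrictFDerivAt.comp
      (0 : Fin n → ℝ)
      ((ContinuousLinearMap.proj (R := ℝ) (φ := fun _ : Fin n => ℝ) k).hasStrictFDerivAt)
    refine h.congr_fderiv ?_
    ext x
    simp [wordConj]
  have h0 : ∀ k, wordConj B (w k) (exp ((0 : Fin n → ℝ) k • B (i k))) = 1 := fun k => by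
    simp [wordConj, wordVal_mul_rev]
  have key : ∀ l : List (Fin n), HasStrictFDerivAt
      (fun x : Fin n → ℝ => (l.map fun k => wordConj B (w k) (exp (x k • B (i k)))).prod)
      ((l.map fun k => (ContinuousLinearMap.proj (R := ℝ) (φ := fun _ : Fin n => ℝ) k).smulRight
        (wordConj B (w k) (B (i k)))).sum) 0 := by
    intro l
    induction l with
    | nil => simpa using hasStrictFDerivAt_const (𝕜 := ℝ) (1 : 𝔸) (0 : Fin n → ℝ)
    | cons k l ih =>
      simp only [List.map_cons, List.prod_cons, List.sum_cons]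
      refine ((hf k).mul' ih).congr_fderiv ?_
      have : (l.map fun k => wordConj B (w k) (exp ((0 : Fin n → ℝ) k • B (i k)))).prod = 1 :=
        List.prod_eq_one (by simp [wordConj, wordVal_mul_rev])
      ext x
      simp only [Pi.zero_apply, zero_smul, exp_zero] at h0 this
      simp [h0, add_comm]
  have := key (List.finRange n)
  unfold wordMap
  simpa only [List.ofFn_eq_map, ← Fin.sum_univ_def] using this

end Vale.Agent.P225
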